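import Vale.Agent.P338Z.End.Defs

/-!
P338, power saving: the cost of a core program from the number of its acts.
-/

namespace Vale.Agent.P338Z

open Vale.Agent.P338.R2.H898 Vale.Agent.P338.R3.H772 Vale.Agent.P338.R3.H831
open Vale.Agent.P338.R3.H121 Vale.Agent.P338.R3.H501.Rad Vale.Agent.Lib.PolyTime
open Vale.Agent.P338.R3.H898 (wts wts_cons Act)
open Vale.Agent.P338.R3.H313 (PV KP)
open Vale.Agent.P338.R3.H968 (CPar)

variable {pass : ℕ → ℕ → ℝ}

/-- The number of products of cells in a list of acts. -/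
def n10 (l : List Act) : ℕ := l.countP fun a => a.1 == 10

@[simp] theorem n10_nil : n10 [] = 0 := rfl

@[simp] theorem n10_append (l l' : List Act) : n10 (l ++ l') = n10 l + n10 l' :=
  List.countP_append

theorem n10_le (l : List Act) : n10 l ≤ l.length := List.countP_le_length

theorem n10_eq_zero {l : List Act} (h : ∀ a ∈ l, a.1 ≠ 10) : n10 l = 0 := by
  unfold n10
  rw [List.countP_eq_zero]
  intro a ha
  simpa using h a ha

theorem n10_flatMap_zero {ι : Type*} {l : List ι} {f : ι → List Act}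
    (h : ∀ i ∈ l, n10 (f i) = 0) : n10 (l.flatMap f) = 0 := by
  induction l with
  | nil => rfl
  | cons i l ih =>
    rw [List.flatMap_cons, n10_append, h i List.mem_cons_self,
      ih fun j hj => h j (List.mem_cons_of_mem _ hj)]

/-- The weight of a list of acts from its length and the number of products of cells. -/
theorem wts_le_len {wt : CPar → ℕ → ℕ} {P : CPar} {w w' : ℝ} (hw0 : 0 ≤ w)
    (hw : ∀ o, o ≠ 10 → (wt P o : ℝ) ≤ w) (hw' : (wt P 10 : ℝ) ≤ w') (l : List Act) :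
    (wts wt P l : ℝ) ≤ w * l.length + w' * n10 l := by
  induction l with
  | nil => simp
  | cons a l ih =>
    rw [wts_cons, List.length_cons]
    by_cases h : a.1 = 10
    · have e : n10 (a :: l) = n10 l + 1 := by simp [n10, h]
      rw [e, h]
      push_cast
      linarith
    · have e : n10 (a :: l) = n10 l := by simp [n10, h]
      have := hw _ h
      rw [e]
      push_cast
      linarith

/-- **The counts** of a schedule: `acts p` is the list of all acts, `it p` the number of loop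
iterations of the control. -/
def Counts (pass : ℕ → ℕ → ℝ) (acts : PV → List Act) (it : PV → ℕ) : Prop :=
  ∃ C : ℝ, 0 < C ∧ ∀ p : PV, p.d + 1 ≤ p.s → 1 ≤ p.y →
    ((acts p).length : ℝ) ≤ C * (2 ^ KP p * pass p.d p.s) ∧ (n10 (acts p) : ℝ) ≤ C * 2 ^ KP p ∧
      (it p : ℝ) ≤ C * (2 ^ KP p * pass p.d p.s)

theorem KP_mk (d s y : ℕ) : KP (⟨d, s, y⟩ : PV) = kB d s := Nat.add_comm _ _

theorem acts_real {C C1 T cp e P a b L N W : ℝ} (hC : 0 ≤ C) (hC1 : 0 ≤ C1) (hT : 0 ≤ T)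
    (he : 0 ≤ e) (hP : 1 ≤ P) (ha : 0 ≤ a) (hb : 0 ≤ b) (hTe : T * e ≤ 512 * cp)
    (hL : L ≤ C1 * (T * P)) (hN : N ≤ C1 * T)
    (hW : W ≤ C * e * (4 + 2 * a) * L + C * e * (6 + 4 * b) * N) :
    W ≤ 5120 * C * C1 * (cp * (P * (1 + a) + b)) := by
  have h1 := mul_le_mul_of_nonneg_left hL (by positivity : 0 ≤ C * e * (4 + 2 * a))
  have h2 := mul_le_mul_of_nonneg_left hN (by positivity : 0 ≤ C * e * (6 + 4 * b))
  have hPa : 0 ≤ P * a := mul_nonneg (by linarith) ha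
  have h3 : (4 + 2 * a) * P + (6 + 4 * b) ≤ 10 * (P * (1 + a) + b) := by nlinarith
  have h4 : 0 ≤ P * (1 + a) + b := by positivity
  calc W ≤ C * e * (4 + 2 * a) * (C1 * (T * P)) + C * e * (6 + 4 * b) * (C1 * T) := by linarith
    _ = C * C1 * (T * e) * ((4 + 2 * a) * P + (6 + 4 * b)) := by ring
    _ ≤ C * C1 * (T * e) * (10 * (P * (1 + a) + b)) :=
        mul_le_mul_of_nonneg_left h3 (by positivity)
    _ ≤ C * C1 * (512 * cp) * (10 * (P * (1 + a) + b)) :=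
        mul_le_mul_of_nonneg_right (mul_le_mul_of_nonneg_left hTe (by positivity)) (by positivity)
    _ = _ := by ring

/-- The acts. -/
theorem actsP_cost {A : MTM} {wt : CPar → ℕ → ℕ} (hW : WtOK A wt)
    (hp : ∀ d s, d + 1 ≤ s → 1 ≤ pass d s) {acts : PV → List Act} {it : PV → ℕ}
    (hc : Counts pass acts it) : ∃ C : ℝ, 0 < C ∧ ∀ d s y : ℕ, d + 1 ≤ s → 1 ≤ y →
      (wts wt (cpar d s y) (acts ⟨d, s, y⟩) : ℝ) ≤ C * mainP pass A d s y := by
  obtain ⟨C, hW⟩ := hW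
  obtain ⟨C1, hC1, hc⟩ := hc
  refine ⟨5120 * C * C1 + 1, by positivity, fun d s y hs hy => ?_⟩
  obtain ⟨w1, w9, w10⟩ := hW _ (cpar_ok d s y)
  obtain ⟨h1, h2, -⟩ := hc ⟨d, s, y⟩ hs hy
  rw [KP_mk] at h1 h2
  rw [cpar_ell] at w1
  have k1 := kap_nonneg A (bC d s y)
  have k2 := kap_nonneg A (lC d s y)
  have he : (1 : ℝ) ≤ ell d s y := by exact_mod_cast ell_pos d s y
  have hC : (0 : ℝ) ≤ C := Nat.cast_nonneg _
  have hw : ∀ o, o ≠ 10 → (wt (cpar d s y) o : ℝ) ≤ C * ell d s y * (4 + 2 * kap A (bC d s y)) := by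
    intro o ho
    by_cases h9 : o = 9
    · rw [h9]
      exact w9_le A w9
    · have h3 : (wt (cpar d s y) o : ℝ) ≤ C * (ell d s y + 1) := by exact_mod_cast w1 o h9 ho
      refine h3.trans ?_
      rw [mul_assoc]
      refine mul_le_mul_of_nonneg_left ?_ hC
      have h4 : (ell d s y : ℝ) * 2 ≤ ell d s y * (4 + 2 * kap A (bC d s y)) :=
        mul_le_mul_of_nonneg_left (by linarith) (by linarith)
      linarith
  have he0 : (0 : ℝ) ≤ ell d s y := Nat.cast_nonneg _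
  have hw0 : 0 ≤ (C : ℝ) * ell d s y * (4 + 2 * kap A (bC d s y)) :=
    mul_nonneg (mul_nonneg hC he0) (by linarith)
  have h := wts_le_len hw0 hw (w10_le A w10) (acts ⟨d, s, y⟩)
  have h5 : ((2 : ℝ) ^ kB d s * ell d s y) ≤ 512 * cap d s y := by
    exact_mod_cast pow_ell_le (by omega) d y
  have hT : (0 : ℝ) ≤ 2 ^ kB d s := pow_nonneg (by norm_num) _
  have h6 := acts_real hC hC1.le hT he0 (hp d s hs) k1 k2 h5 h1 h2 h
  have h7 : 0 ≤ mainP pass A d s y := (Nat.cast_nonneg _).trans (cap_le_mainP A (hp d s hs) y)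
  unfold mainP at h7 ⊢
  linarith

theorem ctlP_nonneg (c : ℕ) {d s : ℕ} (hp : 1 ≤ pass d s) (y : ℕ) : 0 ≤ ctlP pass c d s y := by
  unfold ctlP
  positivity

theorem ctlP_mono {c c' : ℕ} (h : c ≤ c') {d s : ℕ} (hp : 1 ≤ pass d s) (y : ℕ) :
    ctlP pass c d s y ≤ ctlP pass c' d s y := by
  unfold ctlP
  have h1 : (1 : ℝ) ≤ ((2 ^ aR d + s + y + 2 : ℕ) : ℝ) := by
    push_cast
    have : (0 : ℝ) ≤ 2 ^ aR d + s + y := by positivity
    linarith
  gcongr

theorem pow_le_ctlP (c : ℕ) {d s : ℕ} (hp : 1 ≤ pass d s) (y : ℕ) :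
    (((2 ^ aR d + s + y + 2 : ℕ) : ℝ) ^ c) ≤ ctlP pass c d s y := by
  have h2 : (1 : ℝ) ≤ 2 ^ kB d s := one_le_pow₀ (by norm_num)
  have h7 : (1 : ℝ) ≤ 2 ^ kB d s * pass d s := one_le_mul_of_one_le_of_one_le h2 hp
  unfold ctlP
  exact le_mul_of_one_le_left (by positivity) h7

/-- The control. -/
theorem ctlP_cost (c : ℕ) {C : ℝ} (hC : 0 < C) {d s y it : ℕ} (hp : 1 ≤ pass d s)
    (h : (it : ℝ) ≤ C * (2 ^ kB d s * pass d s)) :
    (((it + 1) * pb c (esize (⟨d, s, y⟩ : PV)) : ℕ) : ℝ) ≤ (C + 1) * ctlP pass (5 * c) d s y := by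
  have h2 : (1 : ℝ) ≤ 2 ^ kB d s := one_le_pow₀ (by norm_num)
  have h3 : pb c (esize (⟨d, s, y⟩ : PV)) ≤ (2 ^ aR d + s + y + 2) ^ (5 * c) := by
    have h4 := PV.esize_le ⟨d, s, y⟩
    rw [pow_mul]
    refine Nat.pow_le_pow_left ?_ c
    exact (Nat.add_le_add_right h4 2).trans (ten_mul_le _)
  have h5 : ((pb c (esize (⟨d, s, y⟩ : PV)) : ℕ) : ℝ) ≤
      ((2 ^ aR d + s + y + 2 : ℕ) : ℝ) ^ (5 * c) := by exact_mod_cast h3
  rw [Nat.cast_mul, Nat.cast_add, Nat.cast_one]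
  have h6 : (it : ℝ) + 1 ≤ (C + 1) * (2 ^ kB d s * pass d s) := by
    have h7 : (1 : ℝ) ≤ 2 ^ kB d s * pass d s := one_le_mul_of_one_le_of_one_le h2 hp
    linarith
  have h8 : (0 : ℝ) ≤ (C + 1) * (2 ^ kB d s * pass d s) := by positivity
  calc _ ≤ (C + 1) * (2 ^ kB d s * pass d s) * ((2 ^ aR d + s + y + 2 : ℕ) : ℝ) ^ (5 * c) :=
        mul_le_mul h6 h5 (Nat.cast_nonneg _) h8
    _ = _ := by
        unfold ctlP
        ring

/-- The setup. -/
theorem setupP_cost {A : MTM} {cS : P0 → ℕ} (h : SetupCost cS)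
    (hp : ∀ d s, d + 1 ≤ s → 1 ≤ pass d s) : ∃ (C : ℝ) (c : ℕ), 0 < C ∧
    ∀ d s y, d + 1 ≤ s → 1 ≤ y →
      (cS (mkP d s y) : ℝ) ≤ C * (mainP pass A d s y + ctlP pass c d s y) := by
  obtain ⟨C, c, h⟩ := h
  refine ⟨600 * C + 1, c, by positivity, fun d s y hs hy => ?_⟩
  have hs1 : 1 ≤ s := by omega
  have h1 := h d s y hs hy
  have h2 := pow_ell_le hs1 d y
  have h3 : ell d s y ≤ 512 * cap d s y :=
    (Nat.le_mul_of_pos_left _ (by positivity)).trans h2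
  have h4 := cap_pos d s y
  have h5 : cS (mkP d s y) ≤ C * (600 * cap d s y) + C * (2 ^ aR d + s + y + 2) ^ c :=
    h1.trans (Nat.add_le_add_right (Nat.mul_le_mul_left _ (by omega)) _)
  have h6 : (cS (mkP d s y) : ℝ) ≤ C * (600 * cap d s y) +
      C * ((2 ^ aR d + s + y + 2 : ℕ) : ℝ) ^ c := by exact_mod_cast h5
  have h7 := cap_le_mainP A (hp d s hs) y
  have h8 := pow_le_ctlP c (hp d s hs) y
  have hC : (0 : ℝ) ≤ C := Nat.cast_nonneg _
  have h9 := mul_le_mul_of_nonneg_left h7 hC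
  have h10 := mul_le_mul_of_nonneg_left h8 hC
  have h11 : (0 : ℝ) ≤ mainP pass A d s y := (Nat.cast_nonneg _).trans h7
  have h12 := ctlP_nonneg c (hp d s hs) y
  have h13 := mul_nonneg hC h12
  nlinarith

/-- **The cost of a core program** from its counts. -/
theorem bdP_of {A : MTM} {wt : CPar → ℕ → ℕ} {cS : P0 → ℕ} (K c : ℕ) (hW : WtOK A wt)
    (hS : SetupCost cS) (hp : ∀ d s, d + 1 ≤ s → 1 ≤ pass d s) {acts : PV → List Act}
    {it : PV → ℕ} (hc : Counts pass acts it) :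
    BdP pass A (fun p => cS p + (K * wts wt (cpP p) (acts (bigP p)) +
      (it (bigP p) + 1) * pb c (esize (bigP p))) + 1) := by
  obtain ⟨C1, hC1, h1⟩ := actsP_cost hW hp hc
  obtain ⟨C2, c2, hC2, h2⟩ := setupP_cost (A := A) hS hp
  obtain ⟨C3, hC3, h3⟩ := hc
  refine ⟨C2 + K * C1 + (C3 + 2), max c2 (5 * c), by positivity, fun d s y hs hy => ?_⟩
  have hp1 := hp d s hs
  have a1 := h1 d s y hs hy
  have a2 := h2 d s y hs hy
  have a0 := (h3 ⟨d, s, y⟩ hs hy).2.2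
  rw [KP_mk] at a0
  have a3 := ctlP_cost (y := y) c hC3 hp1 a0
  have b2 := ctlP_mono (le_max_left c2 (5 * c)) hp1 y
  have b3 := ctlP_mono (le_max_right c2 (5 * c)) hp1 y
  have b4 := ctlP_nonneg (max c2 (5 * c)) hp1 y
  have h7 := cap_le_mainP A hp1 y
  have h8 : (1 : ℝ) ≤ cap d s y := by exact_mod_cast cap_pos d s y
  show ((cS (mkP d s y) + (K * wts wt (cpar d s y) (acts ⟨d, s, y⟩) +
      (it ⟨d, s, y⟩ + 1) * pb c (esize (⟨d, s, y⟩ : PV))) + 1 : ℕ) : ℝ) ≤ _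
  rw [Nat.cast_add, Nat.cast_add, Nat.cast_add, Nat.cast_mul, Nat.cast_one]
  have a1' := mul_le_mul_of_nonneg_left a1 (Nat.cast_nonneg (α := ℝ) K)
  have a2' : C2 * (mainP pass A d s y + ctlP pass c2 d s y) ≤
      C2 * (mainP pass A d s y + ctlP pass (max c2 (5 * c)) d s y) :=
    mul_le_mul_of_nonneg_left (by linarith) hC2.le
  have a4 : 0 ≤ (K : ℝ) * C1 * ctlP pass (max c2 (5 * c)) d s y := by positivity
  have a5 := mul_le_mul_of_nonneg_left b3 (by positivity : 0 ≤ C3 + 1)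
  have a6 : 0 ≤ C3 * mainP pass A d s y := mul_nonneg hC3.le (by linarith)
  nlinarith

/-- The same for the fast core program. -/
theorem bd2_of {A : MTM} {wt : CPar → ℕ → ℕ} {cS : P0 → ℕ} (K c : ℕ) (hW : WtOK A wt)
    (hS : SetupCost cS) {acts : PV → List Act} {it : PV → ℕ} (hc : Counts pass2 acts it) :
    Bd2 A (fun p => cS p + (K * wts wt (cpP p) (acts (bigP p)) +
      (it (bigP p) + 1) * pb c (esize (bigP p))) + 1) :=
  bdP_of K c hW hS passOK2.1 hc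

end Vale.Agent.P338Z
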