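import Vale.Agent.P338Z.End.P
import Vale.Agent.P338.R3.H101.Fin

/-!
P338, power saving: from the cost of a core program in the parameters `(d, s, y)` to the final
bound.  `pass d s` bounds the number of passes over the array.
-/

namespace Vale.Agent.P338Z

open Vale.Agent.P338.R2.H898 Vale.Agent.P338.R3.H772 Vale.Agent.P338.R3.H831
open Vale.Agent.P338.R3.H121 Vale.Agent.P338.R3.H501.Rad Vale.Agent.Lib.PolyTime Filter Topology

/-- The cost of the acts: `pass d s` passes with products of words, one with products of cells. -/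
noncomputable def mainP (pass : ℕ → ℕ → ℝ) (A : MTM) (d s y : ℕ) : ℝ :=
  cap d s y * (pass d s * (1 + kap A (bC d s y)) + kap A (lC d s y))

/-- The cost of the control. -/
noncomputable def ctlP (pass : ℕ → ℕ → ℝ) (c d s y : ℕ) : ℝ :=
  2 ^ kB d s * pass d s * ((2 ^ aR d + s + y + 2 : ℕ) : ℝ) ^ c

/-- **The form of the cost of the core program** with the black box `A`. -/
def BdP (pass : ℕ → ℕ → ℝ) (A : MTM) (cst : P0 → ℕ) : Prop :=
  ∃ (C : ℝ) (c : ℕ), 0 < C ∧ ∀ d s y, d + 1 ≤ s → 1 ≤ y →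
    (cst (mkP d s y) : ℝ) ≤ C * (mainP pass A d s y + ctlP pass c d s y)

/-- **The number of passes** is `O(d ^ (3 θ))` if `s = O(d ^ 2)`. -/
def PassOK (θ : ℝ) (pass : ℕ → ℕ → ℝ) : Prop :=
  (∀ d s, d + 1 ≤ s → 1 ≤ pass d s) ∧ ∀ c : ℝ, 0 < c → ∃ C : ℝ, 0 < C ∧ ∀ d s : ℕ, 1 ≤ d →
    d + 1 ≤ s → (s : ℝ) ≤ c * ((d : ℝ) ^ 2 + 1) → pass d s ≤ C * (d : ℝ) ^ (3 * θ)

variable {pass : ℕ → ℕ → ℝ}

theorem cap_pass_le (A : MTM) {d s : ℕ} (hp : 1 ≤ pass d s) (y : ℕ) :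
    cap d s y * pass d s ≤ mainP pass A d s y := by
  unfold mainP
  have h1 := kap_nonneg A (bC d s y)
  have h2 := kap_nonneg A (lC d s y)
  have h5 : 0 ≤ pass d s * kap A (bC d s y) := mul_nonneg (by linarith) h1
  apply mul_le_mul_of_nonneg_left _ (Nat.cast_nonneg _)
  rw [mul_add]
  linarith

theorem cap_le_mainP (A : MTM) {d s : ℕ} (hp : 1 ≤ pass d s) (y : ℕ) :
    (cap d s y : ℝ) ≤ mainP pass A d s y :=
  (le_mul_of_one_le_right (Nat.cast_nonneg _) hp).trans (cap_pass_le A hp y)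

/-- The control is cheap. -/
theorem ctlP_le (A : MTM) {c d s y : ℕ} (hs : 1 ≤ s) (hp : 1 ≤ pass d s)
    (h : (2 ^ aR d + s + y + 2) ^ c ≤ 2 ^ y) : ctlP pass c d s y ≤ 4 * mainP pass A d s y := by
  have h1 : (((2 ^ aR d + s + y + 2 : ℕ) : ℝ) ^ c) ≤ 2 ^ y := by exact_mod_cast h
  have h2 : ((2 : ℝ) ^ kB d s * 2 ^ y) ≤ 4 * cap d s y := by exact_mod_cast pow_kB_le hs d y
  have h3 : 0 ≤ pass d s := by linarith
  unfold ctlP
  calc (2 : ℝ) ^ kB d s * pass d s * ((2 ^ aR d + s + y + 2 : ℕ) : ℝ) ^ c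
      ≤ 2 ^ kB d s * pass d s * 2 ^ y := by gcongr
    _ = (2 ^ kB d s * 2 ^ y) * pass d s := by ring
    _ ≤ 4 * cap d s y * pass d s := by gcongr
    _ = 4 * (cap d s y * pass d s) := by ring
    _ ≤ 4 * mainP pass A d s y := by
        have := cap_pass_le A hp y
        linarith

/-- The total cost. -/
theorem totalP_le {A : MTM} {C : ℝ} (hC : 0 < C) {c d s y C' x T : ℕ} (hs : 1 ≤ s)
    (hp : 1 ≤ pass d s) (h : (2 ^ aR d + s + y + 2) ^ c ≤ 2 ^ y)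
    (h4 : (x : ℝ) ≤ C * (mainP pass A d s y + ctlP pass c d s y))
    (hT : T ≤ C' * (x + cap d s y)) : (T : ℝ) ≤ C' * (5 * C + 1) * mainP pass A d s y := by
  have h5 := ctlP_le A hs hp h
  have h9 := cap_le_mainP A hp y
  have h10 : (T : ℝ) ≤ C' * (x + cap d s y) := by exact_mod_cast hT
  have h0 : C * (mainP pass A d s y + ctlP pass c d s y) ≤ C * (5 * mainP pass A d s y) :=
    mul_le_mul_of_nonneg_left (by linarith) hC.le
  have h11 : (x : ℝ) + cap d s y ≤ (5 * C + 1) * mainP pass A d s y := by linarith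
  have h13 := mul_le_mul_of_nonneg_left h11 (Nat.cast_nonneg (α := ℝ) C')
  linarith

/-- Powers of the number of digits. -/
theorem rpow_digits_le {C' L θ : ℝ} {d : ℕ} (hC' : 1 ≤ C') (hL : 1 ≤ L) (hθ : 0 ≤ θ)
    (hθ1 : θ ≤ 1) (h : (d : ℝ) ^ 3 ≤ C' * L) : (d : ℝ) ^ (3 * θ) ≤ C' * L ^ θ := by
  have hd0 : (0 : ℝ) ≤ d := Nat.cast_nonneg _
  have e : (d : ℝ) ^ (3 * θ) = ((d : ℝ) ^ 3) ^ θ := by
    rw [Real.rpow_mul hd0, ← Real.rpow_natCast]
    norm_num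
  rw [e]
  calc ((d : ℝ) ^ 3) ^ θ ≤ (C' * L) ^ θ := Real.rpow_le_rpow (by positivity) h hθ
    _ = C' ^ θ * L ^ θ := Real.mul_rpow (by linarith) (by linarith)
    _ ≤ C' * L ^ θ := by
        apply mul_le_mul_of_nonneg_right _ (by positivity)
        calc C' ^ θ ≤ C' ^ (1 : ℝ) := Real.rpow_le_rpow_of_exponent_le hC' hθ1
          _ = C' := Real.rpow_one _

theorem cube_le (d s : ℕ) : (d : ℝ) ^ 3 ≤ s + aR d * d := by
  have h : d ^ 3 ≤ s + aR d * d := by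
    unfold aR
    nlinarith
  exact_mod_cast h

theorem bC_le_Lg {c0 C1 L : ℝ} {d s y : ℕ} (hd : 1 ≤ d) (hc0 : 1 ≤ c0)
    (hdim : ((d + s + y + 4 : ℕ) : ℝ) ≤ c0 * (d : ℝ) ^ 2) (hd3 : (d : ℝ) ^ 3 ≤ C1 * L) :
    (bC d s y : ℝ) ≤ 2 * (2 ^ 16 * c0 ^ 8 * C1 ^ 16) * L ^ 16 := by
  have hd1 : (1 : ℝ) ≤ d := by exact_mod_cast hd
  have e1 := bWB_le hdim
  have e2 : (d : ℝ) ^ 16 ≤ C1 ^ 16 * L ^ 16 := by
    rw [← mul_pow]
    apply pow_le_pow_left₀ (by positivity)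
    exact (le_self_pow₀ hd1 (by norm_num)).trans hd3
  calc (bC d s y : ℝ) ≤ 2 * bW d s y := bC_le d s y
    _ ≤ 2 * (2 ^ 16 * (c0 * (d : ℝ) ^ 2) ^ 8) := mul_le_mul_of_nonneg_left e1 (by norm_num)
    _ = 2 * (2 ^ 16 * c0 ^ 8) * (d : ℝ) ^ 16 := by ring
    _ ≤ 2 * (2 ^ 16 * c0 ^ 8) * (C1 ^ 16 * L ^ 16) :=
        mul_le_mul_of_nonneg_left e2 (by positivity)
    _ = 2 * (2 ^ 16 * c0 ^ 8 * C1 ^ 16) * L ^ 16 := by ring

/-- The last inequality. -/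
theorem stageP_real {M M' Q T cp n P kb kl θL : ℝ} (hM' : 0 ≤ M') (hQ : 0 ≤ Q)
    (hθ : 0 ≤ θL) (hkb : 0 ≤ kb) (hkl : 0 ≤ kl) (hcp : cp ≤ M * n) (hcp0 : 0 ≤ cp)
    (hP : P ≤ Q * θL) (hT : T ≤ M' * (cp * (P * (1 + kb) + kl))) :
    T ≤ M' * M * (Q + 1) * n * (θL * (1 + kb) + kl) := by
  have e1 : P * (1 + kb) ≤ Q * θL * (1 + kb) := mul_le_mul_of_nonneg_right hP (by linarith)
  have a2 : 0 ≤ θL * (1 + kb) := by positivity
  have a4 : 0 ≤ Q * kl := by positivity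
  have e5 : P * (1 + kb) + kl ≤ (Q + 1) * (θL * (1 + kb) + kl) := by nlinarith
  have e4 : 0 ≤ (Q + 1) * (θL * (1 + kb) + kl) := by positivity
  calc T ≤ M' * (cp * ((Q + 1) * (θL * (1 + kb) + kl))) :=
        hT.trans (mul_le_mul_of_nonneg_left (mul_le_mul_of_nonneg_left e5 hcp0) hM')
    _ ≤ M' * (M * n * ((Q + 1) * (θL * (1 + kb) + kl))) :=
        mul_le_mul_of_nonneg_left (mul_le_mul_of_nonneg_right hcp e4) hM'
    _ = _ := by ring

/-- **The last stage.** -/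
theorem stageForP {θ : ℝ} (hθ : 5 / 6 ≤ θ) (hθ1 : θ ≤ 1) (hP : PassOK θ pass) {A : MTM}
    {cst : P0 → ℕ} (h : BdP pass A cst) : StageFor VP capP cst (StageP θ A) := by
  obtain ⟨C, c, hC, h⟩ := h
  obtain ⟨E, hE, hE2⟩ := exists_E c
  refine ⟨parB E, pt_parB E, pt_capP (pt_parB E), fun n _ => parB_mem hE n,
    fun n _ => le_capP_parB E n, ?_⟩
  rintro B ⟨C', hB⟩
  obtain ⟨M, hMM⟩ : ∃ M : ℝ, ((2 * 2 ^ E * (E + 2) ^ 8 + capD E 0 : ℕ) : ℝ) = M := ⟨_, rfl⟩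
  have hM : 0 < M := by
    rw [← hMM]
    have : 0 < 2 * 2 ^ E * (E + 2) ^ 8 + capD E 0 := by positivity
    exact_mod_cast this
  obtain ⟨M', hM'⟩ : ∃ M' : ℝ, (C' : ℝ) * (5 * C + 1) = M' := ⟨_, rfl⟩
  have hM0' : 0 ≤ M' := hM' ▸ by positivity
  obtain ⟨c1, hc1e⟩ : ∃ c1 : ℝ, c1 = 100 * ((E : ℝ) + 1) := ⟨_, rfl⟩
  have hc1 : 0 < c1 := by rw [hc1e]; positivity
  obtain ⟨Q, hQ, hpass⟩ := hP.2 c1 hc1
  obtain ⟨C1, hC1, hidx⟩ := index_le hM
  obtain ⟨c0, hc0, hdims⟩ := dims_le E hc1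
  obtain ⟨c5, hc5, hlog⟩ := log_ellB_le (C := 4) (by norm_num) hc0
  obtain ⟨X, hX0, hX1, hX2, hX3, hX4⟩ : ∃ X : ℝ, 0 < X ∧ 2 * (2 ^ 16 * c0 ^ 8 * C1 ^ 16) ≤ X ∧
      1 ≤ X ∧ c5 * C1 ≤ X ∧ M' * M * (Q * C1 + 1) ≤ X := by
    have a1 : 0 < 2 * (2 ^ 16 * c0 ^ 8 * C1 ^ 16) := by positivity
    have a3 : 0 < c5 * C1 := by positivity
    have a4 : 0 ≤ M' * M * (Q * C1 + 1) := by positivity
    exact ⟨2 * (2 ^ 16 * c0 ^ 8 * C1 ^ 16) + 1 + c5 * C1 + M' * M * (Q * C1 + 1), by positivity,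
      by linarith, by linarith, by linarith, by linarith⟩
  refine ⟨X, 16, fun n => bC (dN E n) (sN E (dN E n) n) (yE E (dN E n) (sN E (dN E n) n)),
    fun n => lC (dN E n) (sN E (dN E n) n) (yE E (dN E n) (sN E (dN E n) n)), fun _ => 1, hX0, ?_⟩
  filter_upwards [eventually_ge_atTop 1, (tendsto_dN E).eventually_ge_atTop 1] with n hn hd
  have hs : ((sN E (dN E n) n : ℕ) : ℝ) ≤ c1 * (((dN E n : ℕ) : ℝ) ^ 2 + 1) := by
    rw [hc1e]
    exact_mod_cast sN_le E n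
  have hcap0 := capE_sN_le E n hn (dN_ok E n)
  have hT := hB n hn
  have hs1 := sN_ge E (dN E n) n
  rw [parB, parD] at hT
  rw [capE] at hcap0
  generalize dN E n = d at hd hs hcap0 hT hs1 ⊢
  generalize sN E d n = s at hs hcap0 hT hs1 ⊢
  have h5 := hE2 d s
  have hy1 := yE_pos hE d s
  have hdim := hdims d s hd hs
  generalize yE E d s = y at hcap0 hT h5 hy1 hdim ⊢
  have hs2 : 1 ≤ s := by omega
  have hp1 := hP.1 d s hs1
  have hcap : (cap d s y : ℝ) ≤ M * n := by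
    rw [← hMM]
    exact_mod_cast hcap0
  have hL := one_le_Lg hn
  have hd1 : (1 : ℝ) ≤ d := by exact_mod_cast hd
  have hidx1 := hidx n d s _ hn hs2 hcap
  have hd3 : (d : ℝ) ^ 3 ≤ C1 * Lg n := (cube_le d s).trans hidx1
  obtain ⟨-, g2⟩ := digits_le hC1 hL hd hd3
  have g3 := rpow_digits_le hC1 hL (by linarith) hθ1 hd3
  have hθ0 : 0 ≤ Lg n ^ θ := by positivity
  refine ⟨⟨one_le_bC _ _ _, ?_⟩, ⟨one_le_lC _ _ _, ?_⟩, ?_, ?_⟩
  · exact (bC_le_Lg hd hc0 hdim hd3).trans (mul_le_mul_of_nonneg_right hX1 (by positivity))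
  · have e1 := hlog d s _ (lC d s y) hd hdim (one_le_lC _ _ _) (lC_le d s y)
    have e2 : Lg n ^ (5 / 6 : ℝ) ≤ Lg n ^ θ := Real.rpow_le_rpow_of_exponent_le hL hθ
    calc 1 + Real.log (lC d s y) ≤ c5 * (d : ℝ) ^ 2 := e1
      _ ≤ c5 * (C1 * Lg n ^ θ) :=
          mul_le_mul_of_nonneg_left (g2.trans (mul_le_mul_of_nonneg_left e2 (by linarith))) hc5.le
      _ = c5 * C1 * Lg n ^ θ := by ring
      _ ≤ _ := mul_le_mul_of_nonneg_right hX3 hθ0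
  · have hM1 : 1 ≤ 1 + Real.log (Lg n) := by have := log_Lg_nonneg hn; linarith
    exact one_le_mul_of_one_le_of_one_le hX2 (one_le_pow₀ hM1)
  · have k1 := kap_nonneg A (bC d s y)
    have k2 := kap_nonneg A (lC d s y)
    have h12 := totalP_le (A := A) hC hs2 hp1 h5 (h d s y hs1 hy1) (T := mulTime B n) (C' := C') hT
    rw [hM', mainP] at h12
    have hPq : pass d s ≤ Q * C1 * Lg n ^ θ := by
      refine (hpass d s hd hs1 hs).trans ?_
      rw [mul_assoc]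
      exact mul_le_mul_of_nonneg_left g3 hQ.le
    have := stageP_real hM0' (Q := Q * C1) (by positivity) hθ0 k1 k2
      hcap (Nat.cast_nonneg _) hPq h12
    refine this.trans ?_
    apply mul_le_mul_of_nonneg_right
    · exact mul_le_mul_of_nonneg_right hX4 (Nat.cast_nonneg _)
    · positivity

/-- **The composition.**  It remains to construct the core program with a cost of the form `BdP`
and to count the passes. -/
theorem pow_of_bdP {θ θ' : ℝ} (hθ : 5 / 6 ≤ θ) (hθ' : θ < θ') (hθ1 : θ' ≤ 1) (hP : PassOK θ pass)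
    (hcore : ∀ A, Multiplies A → ∃ cst, BdP pass A cst ∧ HasCore VP capP cst) :
    ∃ B, Multiplies B ∧ PowMul θ' B := by
  obtain ⟨A, hA, hfast⟩ := Vale.Agent.P338.R3.H101.exists_fast
  obtain ⟨B, hB, hst⟩ := stage_of_core' (St := StageP θ) hcore
    (fun _ _ _ h => stageForP hθ (by linarith) hP h) A hA
  exact ⟨B, hB, powMul_of_stageP (by linarith) hθ' hθ1 (nearLog_of_fast hfast) hst⟩

end Vale.Agent.P338Z
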