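import Vale.Agent.P338Z.End.D

/-!
P338, power saving: the number of passes of the fast core program and the final bound.
-/

namespace Vale.Agent.P338Z

open Vale.Agent.P338.R2.H898 Vale.Agent.P338.R3.H772 Vale.Agent.P338.R3.H831
open Vale.Agent.P338.R3.H121 Vale.Agent.P338.R3.H501.Rad

/-- Passes of a fast step that do not depend on the number of its bits. -/
noncomputable def sg2 (d : ℕ) : ℝ := ((d : ℝ) + 1) ^ (1 / 8 : ℝ) + 1

/-- Passes per bit of a fast step. -/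
noncomputable def rt2 (d : ℕ) : ℝ := ((d : ℝ) + 1) ^ (-(1 / 2 ^ 87 : ℝ))

/-- The number of passes of the fast core program. -/
noncomputable def pass2 (d s : ℕ) : ℝ :=
  ((s : ℝ) + aR d * (Nat.sqrt d + 1)) * sg2 d + ((s : ℝ) + aR d * d) * rt2 d

/-- **The form of the cost of the fast core program** with the black box `A`. -/
def Bd2 (A : MTM) (cst : P0 → ℕ) : Prop := BdP pass2 A cst

theorem one_le_sg2 (d : ℕ) : 1 ≤ sg2 d := by
  have : (0 : ℝ) ≤ ((d : ℝ) + 1) ^ (1 / 8 : ℝ) := by positivity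
  unfold sg2
  linarith

theorem rt2_pos (d : ℕ) : 0 < rt2 d := by
  unfold rt2
  positivity

theorem pass2_eq (d s : ℕ) : pass2 d s = uC d s * sg2 d + vC d s * rt2 d := rfl

theorem uC_le_pass2 {s : ℕ} (hs : 1 ≤ s) (d : ℕ) : uC d s ≤ pass2 d s := by
  have h1 := one_le_sg2 d
  have h2 := mul_nonneg (vC_nonneg d s) (rt2_pos d).le
  have h3 := one_le_uC hs d
  have h4 : uC d s * 1 ≤ uC d s * sg2 d := mul_le_mul_of_nonneg_left h1 (by linarith)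
  rw [pass2_eq]
  linarith

theorem one_le_pass2 {s : ℕ} (hs : 1 ≤ s) (d : ℕ) : 1 ≤ pass2 d s :=
  (one_le_uC hs d).trans (uC_le_pass2 hs d)

theorem sqrt_mul_le {x : ℝ} (hx : 1 ≤ x) :
    x ^ 2 * Real.sqrt x * x ^ (1 / 8 : ℝ) ≤ x ^ (3 * (1 - 1 / 2 ^ 87 / 3) : ℝ) := by
  have hx0 : 0 < x := by linarith
  rw [Real.sqrt_eq_rpow, ← Real.rpow_natCast, ← Real.rpow_add hx0, ← Real.rpow_add hx0]
  apply Real.rpow_le_rpow_of_exponent_le hx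
  norm_num

theorem cube_mul_eq {x : ℝ} (hx : 1 ≤ x) :
    x ^ 3 * x ^ (-(1 / 2 ^ 87 : ℝ)) = x ^ (3 * (1 - 1 / 2 ^ 87 / 3) : ℝ) := by
  have hx0 : 0 < x := by linarith
  rw [← Real.rpow_natCast, ← Real.rpow_add hx0]
  congr 1
  norm_num

theorem sg2_le {d : ℕ} (hd : 1 ≤ d) : sg2 d ≤ 3 * (d : ℝ) ^ (1 / 8 : ℝ) := by
  have hd1 : (1 : ℝ) ≤ d := by exact_mod_cast hd
  have h1 : ((d : ℝ) + 1) ^ (1 / 8 : ℝ) ≤ (2 * d) ^ (1 / 8 : ℝ) :=
    Real.rpow_le_rpow (by positivity) (by linarith) (by norm_num)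
  rw [Real.mul_rpow (by norm_num) (by linarith)] at h1
  have h2 : (2 : ℝ) ^ (1 / 8 : ℝ) ≤ 2 := by
    calc (2 : ℝ) ^ (1 / 8 : ℝ) ≤ 2 ^ (1 : ℝ) :=
          Real.rpow_le_rpow_of_exponent_le (by norm_num) (by norm_num)
      _ = 2 := Real.rpow_one _
  have h3 : (1 : ℝ) ≤ (d : ℝ) ^ (1 / 8 : ℝ) := Real.one_le_rpow hd1 (by norm_num)
  have h4 := mul_le_mul_of_nonneg_right h2 (by linarith : (0 : ℝ) ≤ (d : ℝ) ^ (1 / 8 : ℝ))
  unfold sg2
  linarith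

theorem rt2_le {d : ℕ} (hd : 1 ≤ d) : rt2 d ≤ (d : ℝ) ^ (-(1 / 2 ^ 87 : ℝ)) := by
  have hd1 : (0 : ℝ) < d := by exact_mod_cast hd
  exact Real.rpow_le_rpow_of_nonpos hd1 (by linarith) (by norm_num)

theorem vC_le {c : ℝ} (hc : 0 < c) {d s : ℕ} (hd : 1 ≤ d)
    (hs : (s : ℝ) ≤ c * ((d : ℝ) ^ 2 + 1)) :
    (s : ℝ) + aR d * d ≤ (2 * c + 4) * (d : ℝ) ^ 3 := by
  have hd1 : (1 : ℝ) ≤ d := by exact_mod_cast hd
  have hd2 : (1 : ℝ) ≤ (d : ℝ) ^ 2 := one_le_pow₀ hd1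
  have h3 : (d : ℝ) ^ 2 ≤ (d : ℝ) ^ 3 := pow_le_pow_right₀ hd1 (by norm_num)
  have h4 : (aR d : ℝ) ≤ 4 * (d : ℝ) ^ 2 := by
    unfold aR
    push_cast
    linarith
  have h5 : (aR d : ℝ) * d ≤ 4 * (d : ℝ) ^ 2 * d := mul_le_mul_of_nonneg_right h4 (by linarith)
  have h6 : c * ((d : ℝ) ^ 2 + 1) ≤ c * (2 * (d : ℝ) ^ 3) :=
    mul_le_mul_of_nonneg_left (by linarith) hc.le
  have h7 : 4 * (d : ℝ) ^ 2 * d = 4 * (d : ℝ) ^ 3 := by ring
  linarith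

/-- The number of passes is `O(d ^ (3 - 2 ^ (-87)))`. -/
theorem passOK2 : PassOK (1 - 1 / 2 ^ 87 / 3) pass2 := by
  refine ⟨fun d s hs => one_le_pass2 (by omega) d, fun c hc => ?_⟩
  refine ⟨3 * (2 * c + 8) + (2 * c + 4), by positivity, fun d s hd _ hs => ?_⟩
  have hd1 : (1 : ℝ) ≤ d := by exact_mod_cast hd
  have h1 := passes_le hc hd hs
  have h2 := sg2_le hd
  have h3 := vC_le hc hd hs
  have h4 := rt2_le hd
  have h5 := sqrt_mul_le hd1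
  have h6 := cube_mul_eq hd1
  have a1 : ((s : ℝ) + aR d * (Nat.sqrt d + 1)) * sg2 d ≤
      (2 * c + 8) * ((d : ℝ) ^ 2 * Real.sqrt d) * (3 * (d : ℝ) ^ (1 / 8 : ℝ)) :=
    mul_le_mul h1 h2 (by have := one_le_sg2 d; linarith) (by positivity)
  have a2 : ((s : ℝ) + aR d * d) * rt2 d ≤
      (2 * c + 4) * (d : ℝ) ^ 3 * (d : ℝ) ^ (-(1 / 2 ^ 87 : ℝ)) :=
    mul_le_mul h3 h4 (rt2_pos d).le (by positivity)
  have a3 := mul_le_mul_of_nonneg_left h5 (by positivity : 0 ≤ 3 * (2 * c + 8))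
  rw [mul_assoc (2 * c + 4), h6] at a2
  unfold pass2
  linarith

/-- **The end.**  A core program with a cost of the form `Bd2` for every black box gives a machine
with a power saving. -/
theorem end_of_bd2 (hcore : ∀ A, Multiplies A → ∃ cst, Bd2 A cst ∧ HasCore VP capP cst) :
    ∃ B, Multiplies B ∧ ∃ C : ℝ, 0 < C ∧ ∀ n : ℕ, 2 ≤ n →
      (mulTime B n : ℝ) ≤ C * (n * Real.log n ^ (1 - 1 / 2 ^ 89 : ℝ)) :=
  pow_of_bdP (θ := 1 - 1 / 2 ^ 87 / 3) (by norm_num) (by norm_num) (by norm_num) passOK2 hcore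

end Vale.Agent.P338Z
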