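import Vale.Agent.P338Z.End.Sched

/-!
P338, power saving: the final statement from a core program.
-/

namespace Vale.Agent.P338Z

open Vale.Agent.P338.R2.H898 Vale.Agent.P338.R3.H772 Vale.Agent.P338.R3.H121 Filter Topology

/-- A power saving is a saving. -/
theorem fast_of_pow {A : MTM} {C κ : ℝ} (hκ : 0 < κ)
    (h : ∀ n : ℕ, 2 ≤ n → (mulTime A n : ℝ) ≤ C * (n * Real.log n ^ (1 - κ))) : FastAlways A := by
  intro ε hε
  have h1 : Tendsto (fun n : ℕ => C * Real.log n ^ (-κ)) atTop (𝓝 (C * 0)) :=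
    ((tendsto_rpow_neg_atTop hκ).comp
      (Real.tendsto_log_atTop.comp tendsto_natCast_atTop_atTop)).const_mul C
  rw [mul_zero] at h1
  obtain ⟨N, hN⟩ := eventually_atTop.1 ((h1.eventually (gt_mem_nhds hε)).and
    (eventually_ge_atTop 2))
  refine ⟨N, fun n hn => ?_⟩
  obtain ⟨h2, h3⟩ := hN n hn
  have h4 : (1 : ℝ) < n := by exact_mod_cast h3
  have h5 := Real.log_pos h4
  refine (h n h3).trans_lt ?_
  rw [sub_eq_add_neg, Real.rpow_add h5, Real.rpow_one]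
  have h6 : 0 < (n : ℝ) * Real.log n := by positivity
  calc C * (n * (Real.log n * Real.log n ^ (-κ))) = C * Real.log n ^ (-κ) * (n * Real.log n) := by
        ring
    _ < _ := mul_lt_mul_of_pos_right h2 h6

/-- **The final statement.** -/
theorem final_of (hcore : ∀ A, Multiplies A → ∃ cst, BdP pass3 A cst ∧ HasCore VP capP cst) :
    (∃ A : MTM, Multiplies A ∧ ∃ C : ℝ, 0 < C ∧ ∀ n : ℕ, 2 ≤ n →
      (mulTime A n : ℝ) ≤ C * (n * Real.log n ^ (1 - 1 / 2 ^ 89 : ℝ))) ∧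
    ¬ ∀ A : MTM, Multiplies A → ∃ c : ℝ, 0 < c ∧ ∃ N : ℕ, 2 ≤ N ∧ ∀ n : ℕ, N ≤ n →
      c * (n * Real.log n) ≤ mulTime A n := by
  obtain ⟨A, hA, C, hC, h⟩ := end_of_bd3 hcore
  exact ⟨⟨A, hA, C, hC, h⟩, not_q1 hA (fast_of_pow (by norm_num) h).often⟩

end Vale.Agent.P338Z
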