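import Vale.Agent.P338.R3.H831.End3

/-!
P338, power saving: the end of the proof (real analysis only, no machines are constructed here).

`StageP θ A B`: the cost of the machine `B` with the black box `A`, with at most
`C (log n) ^ θ` passes.  `PowMul θ B`: time `n (log n) ^ θ`.
-/

namespace Vale.Agent.P338Z

open Vale.Agent.P338.R2.H898 Vale.Agent.P338.R3.H772 Vale.Agent.P338.R3.H831 Filter Topology

/-- **The last stage.** At most `C (log n) ^ θ` passes, each of cost `σ` plus products of words of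
polylogarithmic length `b`, and one pass with products of cells of length `l`. -/
def StageP (θ : ℝ) (A B : MTM) : Prop :=
  ∃ (C : ℝ) (K : ℕ) (b l : ℕ → ℕ) (σ : ℕ → ℝ), 0 < C ∧ ∀ᶠ n : ℕ in atTop,
    (1 ≤ b n ∧ (b n : ℝ) ≤ C * Lg n ^ K) ∧ (1 ≤ l n ∧ 1 + Real.log (l n) ≤ C * Lg n ^ θ) ∧
    σ n ≤ C * (1 + Real.log (Lg n)) ^ K ∧
    (mulTime B n : ℝ) ≤ C * n * (Lg n ^ θ * (σ n + kap A (b n)) + kap A (l n))

/-- Time `O(n (log n) ^ θ)`. -/
def PowMul (θ : ℝ) (B : MTM) : Prop :=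
  ∃ C : ℝ, 0 < C ∧ ∀ n : ℕ, 2 ≤ n → (mulTime B n : ℝ) ≤ C * (n * Real.log n ^ θ)

/-- A bound for all large `n` is a bound for all `n`. -/
theorem bound_of_eventually {f g : ℕ → ℝ} {a : ℕ} (hg : ∀ n, a ≤ n → 0 < g n) {C : ℝ}
    (h : ∀ᶠ n in atTop, f n ≤ C * g n) : ∃ C' : ℝ, 0 < C' ∧ ∀ n, a ≤ n → f n ≤ C' * g n := by
  obtain ⟨N, hN⟩ := eventually_atTop.1 h
  refine ⟨|C| + 1 + ∑ i ∈ Finset.range N, |f i / g i|, by positivity, fun n hn => ?_⟩
  have hgn := hg n hn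
  have hs : 0 ≤ ∑ i ∈ Finset.range N, |f i / g i| := Finset.sum_nonneg fun i _ => abs_nonneg _
  rcases Nat.lt_or_ge n N with h1 | h1
  · have h2 : |f n / g n| ≤ ∑ i ∈ Finset.range N, |f i / g i| :=
      Finset.single_le_sum (f := fun i => |f i / g i|) (fun i _ => abs_nonneg _)
        (Finset.mem_range.2 h1)
    have h3 : f n / g n ≤ |C| + 1 + ∑ i ∈ Finset.range N, |f i / g i| := by
      have := le_abs_self (f n / g n)
      have := abs_nonneg C
      linarith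
    rwa [div_le_iff₀ hgn] at h3
  · refine (hN n h1).trans (mul_le_mul_of_nonneg_right ?_ hgn.le)
    have := le_abs_self C
    linarith

/-- A machine with time `o(n log n)` is good enough as a black box. -/
theorem nearLog_of_fast {A : MTM} (h : FastAlways A) : NearLogMul A := by
  obtain ⟨N, hN⟩ := h 1 one_pos
  have h1 : ∀ᶠ n : ℕ in atTop, kap A n ≤ 1 * (Lg n * (1 + Real.log (Lg n)) ^ 0) := by
    filter_upwards [eventually_ge_atTop N, eventually_ge_atTop 1] with n hn hn1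
    have h2 := hN n hn
    refine kap_le_of hn1 ?_
    have h0 : (0 : ℝ) ≤ n := Nat.cast_nonneg _
    have h3 : Real.log n ≤ Lg n := by unfold Lg; linarith
    have h4 := mul_le_mul_of_nonneg_left h3 h0
    rw [pow_zero]
    linarith
  obtain ⟨C, hC, h5⟩ := bound_of_eventually (a := 1) (fun n hn => by
    have := one_le_Lg hn
    rw [pow_zero]
    linarith) h1
  exact ⟨C, 0, hC, h5⟩

theorem tendsto_Lg : Tendsto (fun n : ℕ => Lg n) atTop atTop :=
  tendsto_atTop_add_const_left _ _ (Real.tendsto_log_atTop.comp tendsto_natCast_atTop_atTop)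

/-- The cost per bit after the last stage. -/
theorem kap_of_stageP {θ : ℝ} (hθ : 0 ≤ θ) (hθ1 : θ ≤ 1) {A B : MTM} (hA : NearLogMul A)
    (h : StageP θ A B) : ∃ (C : ℝ) (K : ℕ), 0 < C ∧ ∀ᶠ n : ℕ in atTop,
      kap B n ≤ C * (Lg n ^ θ * (1 + Real.log (Lg n)) ^ K) := by
  obtain ⟨C0, K0, hC0, hA⟩ := hA
  obtain ⟨C, K, b, l, σ, hC, h⟩ := h
  obtain ⟨C1, hC1, hlog1⟩ := one_add_log_le K hC
  obtain ⟨C2, hC2, hlog2⟩ := one_add_log_le' hC hθ hθ1
  obtain ⟨K3, hK3⟩ : ∃ K3, K3 = K + (K0 + 1 + K0) := ⟨_, rfl⟩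
  obtain ⟨C3, hC3⟩ : ∃ C3, C3 = C + C0 * (C1 * (2 * C1) ^ K0) + C0 * (C * C2 ^ K0) := ⟨_, rfl⟩
  have hC3p : 0 < C3 := by rw [hC3]; positivity
  refine ⟨C * C3, K3, by positivity, ?_⟩
  filter_upwards [h, eventually_ge_atTop 1] with n hn hn1
  obtain ⟨⟨hb1, hb2⟩, ⟨hl1, hl2⟩, hσ, hT⟩ := hn
  have hL := one_le_Lg hn1
  have hL0 : 0 ≤ Lg n := by linarith
  have h3 := kap_le_of hn1 hT
  obtain ⟨M, hM⟩ : ∃ M, M = 1 + Real.log (Lg n) := ⟨_, rfl⟩
  rw [← hM] at hσ ⊢
  have hM1 : 1 ≤ M := by have := log_Lg_nonneg hn1; linarith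
  have hpow : ∀ i, i ≤ K3 → M ^ i ≤ M ^ K3 := fun i hi => pow_le_pow_right₀ hM1 hi
  have hLθ : 0 ≤ Lg n ^ θ := by positivity
  have e1 : Lg n ^ θ * σ n ≤ C * (Lg n ^ θ * M ^ K3) := by
    calc Lg n ^ θ * σ n ≤ Lg n ^ θ * (C * M ^ K3) :=
          mul_le_mul_of_nonneg_left
            (hσ.trans (mul_le_mul_of_nonneg_left (hpow _ (by omega)) hC.le)) hLθ
      _ = _ := by ring
  have e2 : Lg n ^ θ * kap A (b n) ≤ C0 * (C1 * (2 * C1) ^ K0) * (Lg n ^ θ * M ^ K3) := by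
    have hb0 : (1 : ℝ) ≤ b n := by exact_mod_cast hb1
    have a1 : Lg (b n) ≤ C1 * M := hM ▸ hlog1 _ _ hL hb0 hb2
    have a0 := one_le_Lg hb1
    have a2 : 1 + Real.log (Lg (b n)) ≤ 2 * C1 * M := by
      have := one_add_log_Lg_le hb1
      nlinarith
    have a3 : kap A (b n) ≤ C0 * (C1 * M * (2 * C1 * M) ^ K0) := by
      refine (hA _ hb1).trans (mul_le_mul_of_nonneg_left ?_ hC0.le)
      apply mul_le_mul a1 (pow_le_pow_left₀ _ a2 _) _ (by positivity)
      · have := log_Lg_nonneg hb1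
        linarith
      · have := log_Lg_nonneg hb1
        positivity
    calc Lg n ^ θ * kap A (b n) ≤ Lg n ^ θ * (C0 * (C1 * M * (2 * C1 * M) ^ K0)) :=
          mul_le_mul_of_nonneg_left a3 hLθ
      _ = C0 * (C1 * (2 * C1) ^ K0) * (Lg n ^ θ * M ^ (K0 + 1)) := by
          rw [mul_pow (2 * C1) M K0]; ring
      _ ≤ _ := by
          apply mul_le_mul_of_nonneg_left _ (by positivity)
          exact mul_le_mul_of_nonneg_left (hpow _ (by omega)) hLθ
  have e3 : kap A (l n) ≤ C0 * (C * C2 ^ K0) * (Lg n ^ θ * M ^ K3) := by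
    have a0 := one_le_Lg hl1
    have a1 : Lg (l n) ≤ C * Lg n ^ θ := hl2
    have a2 : 1 + Real.log (Lg (l n)) ≤ C2 * M := hM ▸ hlog2 _ _ hL a0 a1
    have a3 : kap A (l n) ≤ C0 * (C * Lg n ^ θ * (C2 * M) ^ K0) := by
      refine (hA _ hl1).trans (mul_le_mul_of_nonneg_left ?_ hC0.le)
      apply mul_le_mul a1 (pow_le_pow_left₀ _ a2 _) _ (by positivity)
      · have := log_Lg_nonneg hl1
        linarith
      · have := log_Lg_nonneg hl1
        positivity
    calc kap A (l n) ≤ C0 * (C * Lg n ^ θ * (C2 * M) ^ K0) := a3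
      _ = C0 * (C * C2 ^ K0) * (Lg n ^ θ * M ^ K0) := by rw [mul_pow]; ring
      _ ≤ _ := by
          apply mul_le_mul_of_nonneg_left _ (by positivity)
          exact mul_le_mul_of_nonneg_left (hpow _ (by omega)) hLθ
  refine h3.trans ?_
  rw [mul_assoc C C3]
  refine mul_le_mul_of_nonneg_left ?_ hC.le
  rw [mul_add, hC3]
  linarith

/-- **The end**: every exponent above `θ`. -/
theorem powMul_of_stageP {θ θ' : ℝ} (hθ : 0 ≤ θ) (hθ' : θ < θ') (hθ1 : θ' ≤ 1) {A B : MTM}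
    (hA : NearLogMul A) (h : StageP θ A B) : PowMul θ' B := by
  obtain ⟨C, K, hC, h⟩ := kap_of_stageP hθ (by linarith) hA h
  obtain ⟨C4, hC4, hlp⟩ := log_pow_le (sub_pos.2 hθ') K
  have hev : ∀ᶠ n : ℕ in atTop, (mulTime B n : ℝ) ≤ C * C4 * 2 * (n * Real.log n ^ θ') := by
    filter_upwards [h, eventually_ge_atTop 1, tendsto_Lg.eventually_ge_atTop 2] with n h1 h3 h4
    have hn0 : (0 : ℝ) < n := by exact_mod_cast h3
    have hlogn : Lg n ≤ 2 * Real.log n := by unfold Lg at h4 ⊢; linarith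
    have hLn0 : 0 < Lg n := by linarith
    have hlog0 : 0 < Real.log n := by unfold Lg at h4; linarith
    have b1 : Lg n ^ θ * (1 + Real.log (Lg n)) ^ K ≤ C4 * Lg n ^ θ' := by
      calc Lg n ^ θ * (1 + Real.log (Lg n)) ^ K ≤ Lg n ^ θ * (C4 * Lg n ^ (θ' - θ)) :=
            mul_le_mul_of_nonneg_left (hlp _ (by linarith)) (by positivity)
        _ = C4 * Lg n ^ θ' := by
            rw [mul_left_comm, ← Real.rpow_add hLn0]
            congr 2
            ring
    have b2 : Lg n ^ θ' ≤ 2 * Real.log n ^ θ' := by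
      calc Lg n ^ θ' ≤ (2 * Real.log n) ^ θ' :=
            Real.rpow_le_rpow hLn0.le hlogn (by linarith)
        _ = 2 ^ θ' * Real.log n ^ θ' := Real.mul_rpow (by norm_num) hlog0.le
        _ ≤ 2 * Real.log n ^ θ' := by
            apply mul_le_mul_of_nonneg_right _ (by positivity)
            calc (2 : ℝ) ^ θ' ≤ 2 ^ (1 : ℝ) :=
                  Real.rpow_le_rpow_of_exponent_le (by norm_num) hθ1
              _ = 2 := Real.rpow_one _
    have b3 : kap B n ≤ C * C4 * 2 * Real.log n ^ θ' := by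
      calc kap B n ≤ C * (C4 * Lg n ^ θ') := h1.trans (mul_le_mul_of_nonneg_left b1 hC.le)
        _ ≤ C * (C4 * (2 * Real.log n ^ θ')) :=
            mul_le_mul_of_nonneg_left (mul_le_mul_of_nonneg_left b2 hC4.le) hC.le
        _ = _ := by ring
    unfold kap at b3
    rw [div_le_iff₀ hn0] at b3
    linarith
  refine bound_of_eventually (a := 2) (fun n hn => ?_) hev
  have h2 : (1 : ℝ) < n := by exact_mod_cast hn
  have := Real.log_pos h2
  positivity

end Vale.Agent.P338Z
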