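import Mathlib

/-!
P338, power saving: recurrences.
-/

namespace Vale.Agent.P338Z

/-- The solution of a linear recurrence with a geometric inhomogeneity. -/
theorem rec_le {T : ℕ → ℝ} {a b lam mu : ℝ} (hb : 0 ≤ b) (hmu : 0 ≤ mu) (h : mu + 1 ≤ lam)
    {n : ℕ} (h0 : T 0 ≤ a) (hs : ∀ j, j < n → T (j + 1) ≤ lam * T j + b * mu ^ j) :
    T n ≤ (a + b) * lam ^ n := by
  have key : ∀ j, j ≤ n → T j ≤ (a + b) * lam ^ j - b * mu ^ j := by
    intro j
    induction j with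
    | zero => intro _; simpa using h0
    | succ j ih =>
      intro hj
      have h1 := mul_le_mul_of_nonneg_left (ih (by omega)) (by linarith : 0 ≤ lam)
      have h2 := hs j (by omega)
      have h3 : 0 ≤ b * mu ^ j := by positivity
      have h4 := mul_le_mul_of_nonneg_left h h3
      rw [pow_succ, pow_succ]
      nlinarith
  have h5 := key n le_rfl
  have h6 : 0 ≤ b * mu ^ n := by positivity
  linarith

/-- The same with a constant inhomogeneity. -/
theorem rec_le_const {T : ℕ → ℝ} {a b lam : ℝ} (hb : 0 ≤ b) (h : 2 ≤ lam) {n : ℕ} (h0 : T 0 ≤ a)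
    (hs : ∀ j, j < n → T (j + 1) ≤ lam * T j + b) : T n ≤ (a + b) * lam ^ n :=
  rec_le (mu := 1) hb zero_le_one (by linarith) h0 fun j hj => by
    rw [one_pow, mul_one]
    exact hs j hj

/-- The growth factor of the recursions: `(2 ^ r m - 1) / 2 ^ r`. -/
noncomputable def lamR (r m : ℕ) : ℝ := m - 1 / 2 ^ r

theorem lamR_eq (r m : ℕ) : lamR r m = (2 ^ r * m - 1) / 2 ^ r := by
  unfold lamR
  field_simp

theorem lamR_ge (r m : ℕ) : (m : ℝ) - 1 ≤ lamR r m := by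
  have h : (1 : ℝ) / 2 ^ r ≤ 1 := by
    rw [div_le_one (by positivity)]
    exact one_le_pow₀ (by norm_num)
  unfold lamR
  linarith

theorem lamR_le (r m : ℕ) : lamR r m ≤ m := by
  have h : (0 : ℝ) ≤ 1 / 2 ^ r := by positivity
  unfold lamR
  linarith

/-- The saving of one level. -/
theorem lamR_le_rpow {r m : ℕ} (hr : r ≤ 60) (hm : m ≤ 2 ^ 17) (hm1 : 1 ≤ m) :
    lamR r m ≤ (m : ℝ) ^ (1 - 1 / 2 ^ 81 : ℝ) := by
  have hm0 : (0 : ℝ) < m := by exact_mod_cast hm1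
  have hm' : (m : ℝ) ≤ 2 ^ 17 := by exact_mod_cast hm
  have h1 : Real.log m ≤ 16 := by
    have h2 := Real.log_le_log hm0 hm'
    rw [Real.log_pow] at h2
    have h3 := Real.log_two_lt_d9
    push_cast at h2
    linarith
  have h4 : (1 : ℝ) / 2 ^ 60 ≤ 1 / 2 ^ r :=
    one_div_le_one_div_of_le (by positivity) (pow_le_pow_right₀ (by norm_num) hr)
  rw [Real.rpow_sub hm0, Real.rpow_one, div_eq_mul_inv, ← Real.rpow_neg hm0.le,
    Real.rpow_def_of_pos hm0]
  have h5 := Real.add_one_le_exp (Real.log m * -(1 / 2 ^ 81))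
  have h6 : (m : ℝ) * (1 - 1 / 2 ^ 77) ≤ m * Real.exp (Real.log m * -(1 / 2 ^ 81)) := by
    refine mul_le_mul_of_nonneg_left (le_trans ?_ h5) hm0.le
    linarith
  unfold lamR
  linarith

/-- The saving of `j` levels. -/
theorem lamR_pow_le {r m : ℕ} (hr : r ≤ 60) (hm : m ≤ 2 ^ 17) (hm1 : 1 ≤ m) (j : ℕ) :
    lamR r m ^ j ≤ ((m : ℝ) ^ j) ^ (1 - 1 / 2 ^ 81 : ℝ) := by
  have hm0 : (1 : ℝ) ≤ m := by exact_mod_cast hm1
  have h0 : 0 ≤ lamR r m := le_trans (by linarith) (lamR_ge r m)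
  calc lamR r m ^ j ≤ ((m : ℝ) ^ (1 - 1 / 2 ^ 81 : ℝ)) ^ j :=
        pow_le_pow_left₀ h0 (lamR_le_rpow hr hm hm1) j
    _ = _ := by
        rw [← Real.rpow_natCast, ← Real.rpow_mul (by linarith), mul_comm, Real.rpow_mul (by linarith),
          Real.rpow_natCast]

end Vale.Agent.P338Z
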