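import Vale.Agent.P338Z.End.Cost
import Vale.Agent.P338Z.Nm.Sched

/-!
P338, power saving: the counts of the grouped schedule.
-/

namespace Vale.Agent.P338Z

open Vale.Agent.P338.R2.H898 Vale.Agent.P338.R3.H772 Vale.Agent.P338.R3.H831
open Vale.Agent.P338.R3.H121 Vale.Agent.P338.R3.H501.Rad
open Vale.Agent.P338.R3.H898 (Act)
open Vale.Agent.P338.R3.H313 (PV KP GP)
open Vale.Agent.P338.R3.H282 (Geo St DC Ly)
open Vale.Agent.P338.R3.H352 (Dc)
open Vale.Agent.P338Z.Nm (lprog2 lb2 lh2 lg2 lgi2 fw2 bk2 isH isH_some length_lprog2)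

/-- The number of passes, with room for the old steps. -/
noncomputable def pass3 (d s : ℕ) : ℝ := pass2 d s + uC d s * sgB (d + s)

theorem uC_nonneg (d s : ℕ) : 0 ≤ uC d s := by
  unfold uC
  positivity

theorem pass2_le_pass3 (d s : ℕ) : pass2 d s ≤ pass3 d s :=
  le_add_of_nonneg_right (mul_nonneg (uC_nonneg d s) (sgB_nonneg _))

theorem log_le_rpow8 {x : ℝ} (hx : 1 ≤ x) : Real.log x ≤ 8 * x ^ (1 / 8 : ℝ) := by
  have h := Real.log_le_rpow_div (by linarith : 0 ≤ x) (by norm_num : (0 : ℝ) < 1 / 8)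
  linarith

theorem sgB_le_rpow {c : ℝ} (hc : 0 < c) : ∃ C : ℝ, 0 < C ∧ ∀ d s : ℕ, 1 ≤ d →
    (s : ℝ) ≤ c * ((d : ℝ) ^ 2 + 1) → sgB (d + s) ≤ C * (d : ℝ) ^ (1 / 8 : ℝ) := by
  refine ⟨71 + 4 * Real.log (2 * c + 1), ?_, fun d s hd hs => ?_⟩
  · have := Real.log_nonneg (by linarith : 1 ≤ 2 * c + 1)
    linarith
  have hd1 : (1 : ℝ) ≤ d := by exact_mod_cast hd
  have hd2 : (1 : ℝ) ≤ (d : ℝ) ^ 2 := one_le_pow₀ hd1
  have hd3 : (d : ℝ) ≤ (d : ℝ) ^ 2 := le_self_pow₀ hd1 (by norm_num)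
  have h1 := sgB_le (d + s)
  have h2 := size_le_log (D := d + s) (by omega)
  have h3 : ((d + s : ℕ) : ℝ) ≤ (2 * c + 1) * (d : ℝ) ^ 2 := by
    have : c * ((d : ℝ) ^ 2 + 1) ≤ c * (2 * (d : ℝ) ^ 2) :=
      mul_le_mul_of_nonneg_left (by linarith) hc.le
    push_cast
    linarith
  have h0 : (0 : ℝ) < ((d + s : ℕ) : ℝ) := by exact_mod_cast (by omega : 0 < d + s)
  have h4 := Real.log_le_log h0 h3
  rw [Real.log_mul (by linarith) (by linarith), Real.log_pow] at h4
  have h5 := log_le_rpow8 hd1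
  have h6 : (1 : ℝ) ≤ (d : ℝ) ^ (1 / 8 : ℝ) := Real.one_le_rpow hd1 (by norm_num)
  have h7 := Real.log_nonneg (by linarith : 1 ≤ 2 * c + 1)
  have h8 := mul_le_mul_of_nonneg_left h6 h7
  push_cast at h4 h2
  linarith

theorem passOK3 : PassOK (1 - 1 / 2 ^ 87 / 3) pass3 := by
  refine ⟨fun d s hs => (passOK2.1 d s hs).trans (pass2_le_pass3 d s), fun c hc => ?_⟩
  obtain ⟨C1, hC1, h1⟩ := passOK2.2 c hc
  obtain ⟨C2, hC2, h2⟩ := sgB_le_rpow hc
  refine ⟨C1 + (2 * c + 8) * C2, by positivity, fun d s hd hds hs => ?_⟩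
  have hd1 : (1 : ℝ) ≤ d := by exact_mod_cast hd
  have a1 : uC d s * sgB (d + s) ≤
      (2 * c + 8) * ((d : ℝ) ^ 2 * Real.sqrt d) * (C2 * (d : ℝ) ^ (1 / 8 : ℝ)) :=
    mul_le_mul (passes_le hc hd hs) (h2 d s hd hs) (sgB_nonneg _) (by positivity)
  have a3 := mul_le_mul_of_nonneg_left (sqrt_mul_le hd1) (by positivity : 0 ≤ (2 * c + 8) * C2)
  have a4 := h1 d s hd hds hs
  unfold pass3
  linarith

/-- **The end**, with the number of passes `pass3`. -/
theorem end_of_bd3 (hcore : ∀ A, Multiplies A → ∃ cst, BdP pass3 A cst ∧ HasCore VP capP cst) :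
    ∃ B, Multiplies B ∧ ∃ C : ℝ, 0 < C ∧ ∀ n : ℕ, 2 ≤ n →
      (mulTime B n : ℝ) ≤ C * (n * Real.log n ^ (1 - 1 / 2 ^ 89 : ℝ)) :=
  pow_of_bdP (θ := 1 - 1 / 2 ^ 87 / 3) (by norm_num) (by norm_num) (by norm_num) passOK3 hcore

/-! ### the grouped schedule -/

/-- Number of layers of a local program which are not diagonals. -/
def nzc {δ : Type} (prog : List (Ly δ)) : ℕ :=
  (prog.map fun l => match l with
    | .dg _ => 0
    | _ => 1).sum

theorem nzc_append {δ : Type} (l l' : List (Ly δ)) : nzc (l ++ l') = nzc l + nzc l' := by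
  simp [nzc]

theorem nj_W' {δ : Type} (G : Geo) (prog : List (Ly δ)) (J : List ℕ) :
    tot nj (G.W prog J) ≤ nzc prog * J.length := by
  unfold Geo.W nzc
  induction prog with
  | nil => simp
  | cons x l ih =>
    rw [List.map_cons, tot_cons, List.map_cons, List.sum_cons, Nat.add_mul]
    refine Nat.add_le_add ?_ ih
    cases x <;> simp [nj, Geo.lk]

theorem nzc_lprog2 (a : ℕ) : nzc (lprog2 a) = 6 := by
  have h0 : ∀ l : List ℕ, (l.flatMap fun _ => [0, 0]).sum = 0 := by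
    intro l
    induction l with
    | nil => rfl
    | cons x l ih => simpa using ih
  have h1 : nzc (lg2 a) = 0 := by
    simp [nzc, lg2, List.map_flatMap, h0]
  have h2 : nzc (lgi2 a) = 0 := by
    simp [nzc, lgi2, List.map_flatMap, h0]
  have h3 : ∀ w sg, nzc (lh2 a w sg) = 1 := by
    intro w sg
    rw [lh2, nzc_append, nzc_append, h1, h2]
    cases w <;> rfl
  have h4 : ∀ w, nzc (lb2 a w) = 2 := by
    intro w
    rw [lb2, nzc_append, nzc_append, nzc_append, nzc_append, h3, h3]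
    rfl
  rw [lprog2, nzc_append, nzc_append, h4, h4]

variable (p : PV)

theorem d_le_uC (d s : ℕ) : s + d ≤ s + aR d * (Nat.sqrt d + 1) := by
  have h : d ≤ aR d := by
    unfold aR
    nlinarith
  exact Nat.add_le_add_left (h.trans (Nat.le_mul_of_pos_right _ (by omega))) _

theorem cast_le_uC {x c d s : ℕ} (h : x ≤ c * (s + aR d * (Nat.sqrt d + 1))) :
    (x : ℝ) ≤ c * uC d s := by
  unfold uC
  exact_mod_cast h

theorem cast_le_vC {x c d s : ℕ} (h : x ≤ c * (s + aR d * d)) : (x : ℝ) ≤ c * vC d s := by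
  unfold vC
  exact_mod_cast h

theorem lprog2_le (d : ℕ) : (lprog2 (aR d)).length + 1 ≤ 35 * aR d := by
  have h4 := three_le_aR d
  rw [length_lprog2]
  omega

/-- The number of steps. -/
theorem length2_le : ((fw2 p ++ bk2 p).length : ℝ) ≤ (560 : ℕ) * uC p.d p.s := by
  refine cast_le_uC ?_
  have h1 := nz_fwd (GP p) (lprog2 (aR p.d))
  have h2 := nz_bwd (GP p) (lprog2 (aR p.d))
  have h1' := nd_fwd (GP p) (lprog2 (aR p.d))
  have h2' := nd_bwd (GP p) (lprog2 (aR p.d))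
  have h3 : nS (GP p) ≤ 4 * Nat.sqrt p.d + 1 := nS_geo p.d p.s
  have h5 := lprog2_le p.d
  have h6 : (GP p).s = p.s := rfl
  have h7 : ((lprog2 (aR p.d)).length + 1) * nS (GP p) ≤
      35 * aR p.d * (4 * (Nat.sqrt p.d + 1)) := Nat.mul_le_mul h5 (by omega)
  have h8 : (lprog2 (aR p.d)).length * nS (GP p) ≤ ((lprog2 (aR p.d)).length + 1) * nS (GP p) :=
    Nat.mul_le_mul_right _ (Nat.le_succ _)
  have h9 : 35 * aR p.d * (4 * (Nat.sqrt p.d + 1)) = 140 * (aR p.d * (Nat.sqrt p.d + 1)) := by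
    ring
  rw [length_eq, tot_append, tot_append]
  unfold fw2 bk2
  rw [h6] at h1 h2 h1' h2'
  omega

/-- The bits of the steps which are not fast. -/
theorem nj2_le : (tot nj (fw2 p ++ bk2 p) : ℝ) ≤ (60 : ℕ) * uC p.d p.s := by
  refine cast_le_uC ?_
  have h1 := tot_fwd (GP p) (lprog2 (aR p.d)) (v := nj) (A := 0) (B := 6) (D := 0) (S := 2)
    (fun J => by simpa [nzc_lprog2] using nj_W' (GP p) (lprog2 (aR p.d)) J) (fun p => le_rfl)
    (fun p => le_rfl) (fun i => by simp [Geo.selF, nj])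
  have h2 := tot_bwd (GP p) (lprog2 (aR p.d)) (v := nj) (A := 0) (B := 6) (D := 0) (S := 2)
    (C := 0) (fun J => by simpa [nzc_lprog2] using nj_W' (GP p) (lprog2 (aR p.d)) J)
    (fun p => le_rfl) (fun p => le_rfl) (fun i => by simp [Geo.selI, nj]) le_rfl
  have h6 : (GP p).s = p.s := rfl
  have h7 : (GP p).d = p.d := rfl
  have h8 := d_le_uC p.d p.s
  rw [tot_append]
  unfold fw2 bk2
  rw [h6, h7] at h1 h2
  omega

/-- The bits of the fast steps. -/
theorem nl2_le : (tot nl (fw2 p ++ bk2 p) : ℝ) ≤ (350 : ℕ) * vC p.d p.s := by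
  refine cast_le_vC ?_
  have h1 := nl_fwd (GP p) (lprog2 (aR p.d))
  have h2 := nl_bwd (GP p) (lprog2 (aR p.d))
  have h5 := lprog2_le p.d
  have h7 : (GP p).d = p.d := rfl
  have h8 : 5 * (lprog2 (aR p.d)).length * p.d ≤ 5 * (35 * aR p.d) * p.d :=
    Nat.mul_le_mul_right _ (Nat.mul_le_mul_left _ (by omega))
  have h9 : 5 * (35 * aR p.d) * p.d = 175 * (aR p.d * p.d) := by ring
  rw [tot_append]
  unfold fw2 bk2
  rw [h7] at h1 h2
  omega

/-- The sum of a cost over a list of steps. -/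
theorem sum_steps_le {v : St Dc → ℝ} {a b c : ℝ} (l : List (St Dc))
    (h : ∀ st ∈ l, v st ≤ a + b * nj st + c * nl st) :
    (l.map v).sum ≤ a * l.length + b * tot nj l + c * tot nl l := by
  induction l with
  | nil => simp
  | cons x l ih =>
    have h1 := h x List.mem_cons_self
    have h2 := ih fun st hst => h st (List.mem_cons_of_mem _ hst)
    rw [List.map_cons, List.sum_cons, List.length_cons, tot_cons, tot_cons]
    push_cast
    linarith

/-- **The cost of the grouped schedule.** -/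
theorem sched2_le {v : St Dc → ℝ} {C : ℝ} (hC : 0 ≤ C)
    (hH : ∀ st ∈ fw2 p ++ bk2 p, ∀ t J, isH st = some (t, J) →
      v st ≤ C * (sg2 p.d + J.length * rt2 p.d))
    (hN : ∀ st ∈ fw2 p ++ bk2 p, isH st = none → v st ≤ C * (sgB (p.d + p.s) * (1 + nj st))) :
    ((fw2 p ++ bk2 p).map v).sum ≤ 620 * C * pass3 p.d p.s := by
  have h1 := one_le_sg2 p.d
  have h2 := rt2_pos p.d
  have h3 := sgB_nonneg (p.d + p.s)
  have hu := uC_nonneg p.d p.s
  have hv := vC_nonneg p.d p.s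
  have a1 : 0 ≤ C * sg2 p.d := mul_nonneg hC (by linarith)
  have a2 : 0 ≤ C * sgB (p.d + p.s) := mul_nonneg hC h3
  have a3 : 0 ≤ C * rt2 p.d := mul_nonneg hC h2.le
  have h := sum_steps_le (v := v) (a := C * sg2 p.d + C * sgB (p.d + p.s))
    (b := C * sgB (p.d + p.s)) (c := C * rt2 p.d) (fw2 p ++ bk2 p) (fun st hst => by
      have b1 : 0 ≤ C * sgB (p.d + p.s) * nj st := mul_nonneg a2 (Nat.cast_nonneg _)
      have b2 : 0 ≤ C * rt2 p.d * nl st := mul_nonneg a3 (Nat.cast_nonneg _)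
      cases hst' : isH st with
      | none =>
        have := hN st hst hst'
        linarith
      | some x =>
        have h4 := hH st hst x.1 x.2 hst'
        have h5 : nl st = x.2.length := by
          rw [isH_some (t := x.1) (J := x.2) hst']
          rfl
        rw [h5]
        linarith)
  have b1 := mul_le_mul_of_nonneg_left (length2_le p) (add_nonneg a1 a2)
  have b2 := mul_le_mul_of_nonneg_left (nj2_le p) a2
  have b3 := mul_le_mul_of_nonneg_left (nl2_le p) a3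
  have c1 := mul_nonneg a1 hu
  have c2 := mul_nonneg a2 hu
  have c3 := mul_nonneg a3 hv
  rw [pass3, pass2_eq]
  push_cast at b1 b2 b3
  linarith

/-- **The counts** from the lengths of the acts of the steps: `stA p st` are the acts of the step
`st`, all other acts are a bounded number of passes. -/
theorem counts_of {acts : PV → List Act} {it : PV → ℕ} {stA : PV → St Dc → List Act} {C : ℝ}
    (hC : 0 < C)
    (hH : ∀ p : PV, p.d + 1 ≤ p.s → 1 ≤ p.y → ∀ st ∈ fw2 p ++ bk2 p, ∀ t J,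
      isH st = some (t, J) →
      ((stA p st).length : ℝ) ≤ C * (2 ^ KP p * (sg2 p.d + J.length * rt2 p.d)))
    (hN : ∀ p : PV, p.d + 1 ≤ p.s → 1 ≤ p.y → ∀ st ∈ fw2 p ++ bk2 p, isH st = none →
      ((stA p st).length : ℝ) ≤ C * (2 ^ KP p * (sgB (p.d + p.s) * (1 + nj st))))
    (hA : ∀ p : PV, p.d + 1 ≤ p.s → 1 ≤ p.y →
      ((acts p).length : ℝ) ≤ ((fw2 p ++ bk2 p).flatMap (stA p)).length + C * 2 ^ KP p)
    (h10 : ∀ p : PV, p.d + 1 ≤ p.s → 1 ≤ p.y → (n10 (acts p) : ℝ) ≤ C * 2 ^ KP p)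
    (hit : ∀ p : PV, p.d + 1 ≤ p.s → 1 ≤ p.y → (it p : ℝ) ≤ C * ((acts p).length + 1)) :
    Counts pass3 acts it := by
  refine ⟨(C + 1) * (621 * C + 1), by positivity, fun p hs hy => ?_⟩
  have hT : (1 : ℝ) ≤ 2 ^ KP p := one_le_pow₀ (by norm_num)
  have hp := passOK3.1 p.d p.s hs
  have h1 := sched2_le p (v := fun st => ((stA p st).length : ℝ)) (C := C * 2 ^ KP p)
    (by positivity) (fun st hst t J h => (hH p hs hy st hst t J h).trans_eq (by ring))
    (fun st hst h => (hN p hs hy st hst h).trans_eq (by ring))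
  have h2 : (((fw2 p ++ bk2 p).flatMap (stA p)).length : ℝ) =
      ((fw2 p ++ bk2 p).map fun st => ((stA p st).length : ℝ)).sum := by
    rw [List.length_flatMap, Nat.cast_list_sum, List.map_map]
    rfl
  obtain ⟨X, hX⟩ : ∃ X, X = 2 ^ KP p * pass3 p.d p.s := ⟨_, rfl⟩
  have h3 : (2 : ℝ) ^ KP p ≤ X := hX ▸ le_mul_of_one_le_right (by linarith) hp
  have h4 : ((acts p).length : ℝ) ≤ 621 * C * X := by
    have h5 := hA p hs hy
    have h6 := mul_le_mul_of_nonneg_left h3 hC.le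
    have h7 : 620 * (C * 2 ^ KP p) * pass3 p.d p.s = 620 * C * X := by rw [hX]; ring
    rw [h2] at h5
    linarith
  rw [← hX]
  have hX1 : 1 ≤ X := hT.trans h3
  have b1 : 0 ≤ C * X := by positivity
  have b2 : 0 ≤ C * (C * X) := by positivity
  refine ⟨by linarith, (h10 p hs hy).trans (mul_le_mul_of_nonneg_right ?_ (by linarith)), ?_⟩
  · have : 0 ≤ C * C := by positivity
    linarith
  · have h8 := hit p hs hy
    have h9 : C * (((acts p).length : ℝ) + 1) ≤ C * (621 * C * X + X) :=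
      mul_le_mul_of_nonneg_left (by linarith) hC.le
    linarith

end Vale.Agent.P338Z
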